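import Vale.Agent.N079.Semi

/-! Semigroups with a left invariant mean on the bounded real functions. -/

set_option linter.all false

open Filter Topology Set

namespace Vale.Agent.N079

open Vale.Agent.P079 Vale.Agent.P079.H880

/-- Bounded real functions. -/
def Bd {S : Type*} (f : S → ℝ) : Prop := ∃ M, ∀ s, |f s| ≤ M

theorem Bd.const {S : Type*} (c : ℝ) : Bd fun _ : S => c := ⟨|c|, fun _ => le_rfl⟩

theorem Bd.add {S : Type*} {f g : S → ℝ} (hf : Bd f) (hg : Bd g) : Bd fun s => f s + g s := by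
  obtain ⟨M, hM⟩ := hf
  obtain ⟨N, hN⟩ := hg
  exact ⟨M + N, fun s => (abs_add_le _ _).trans (add_le_add (hM s) (hN s))⟩

theorem Bd.smul {S : Type*} {f : S → ℝ} (hf : Bd f) (c : ℝ) : Bd fun s => c * f s := by
  obtain ⟨M, hM⟩ := hf
  exact ⟨|c| * M, fun s => by
    rw [abs_mul]
    exact mul_le_mul_of_nonneg_left (hM s) (abs_nonneg _)⟩

theorem Bd.ind {S : Type*} (A : Set S) : Bd (A.indicator fun _ => (1 : ℝ)) :=
  ⟨1, fun s => by by_cases h : s ∈ A <;> simp [h]⟩

theorem Bd.bdd {S : Type*} {f : S → ℝ} (hf : Bd f) : Bornology.IsBounded (range f) := by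
  obtain ⟨M, hM⟩ := hf
  exact isBounded_iff_forall_norm_le.2 ⟨M, by rintro _ ⟨s, rfl⟩; exact hM s⟩

/-- A left invariant mean, as a function on all real functions. -/
structure Mean {S : Type*} [Semigroup S] (m : (S → ℝ) → ℝ) : Prop where
  add : ∀ f g, Bd f → Bd g → m (fun s => f s + g s) = m f + m g
  smul : ∀ f c, Bd f → m (fun s => c * f s) = c * m f
  mono : ∀ f g, Bd f → Bd g → (∀ s, f s ≤ g s) → m f ≤ m g
  const : ∀ c, m (fun _ => c) = c
  inv : ∀ f a, Bd f → m (fun s => f (a * s)) = m f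

variable {S : Type*} [Semigroup S]

theorem mean_of (m : (S → ℝ) → ℝ)
    (h1 : ∀ f g : S → ℝ, Bornology.IsBounded (range f) → Bornology.IsBounded (range g) →
      m (f + g) = m f + m g)
    (h2 : ∀ (c : ℝ) (f : S → ℝ), Bornology.IsBounded (range f) → m (c • f) = c * m f)
    (h3 : ∀ f : S → ℝ, Bornology.IsBounded (range f) → (∀ s, 0 ≤ f s) → 0 ≤ m f)
    (h4 : m (fun _ => 1) = 1)
    (h5 : ∀ (a : S) (f : S → ℝ), Bornology.IsBounded (range f) →
      m (fun s => f (a * s)) = m f) : Mean m := by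
  have ha : ∀ f g, Bd f → Bd g → m (fun s => f s + g s) = m f + m g :=
    fun f g hf hg => h1 f g hf.bdd hg.bdd
  have hs : ∀ f c, Bd f → m (fun s => c * f s) = c * m f := fun f c hf => h2 c f hf.bdd
  refine ⟨ha, hs, fun f g hf hg h => ?_, fun c => ?_, fun f a hf => h5 a f hf.bdd⟩
  · have e := h3 _ (hg.add (hf.smul (-1))).bdd fun s => by have := h s; linarith
    rw [ha _ _ hg (hf.smul (-1)), hs _ _ hf] at e
    linarith
  · have e := hs _ c (Bd.const (S := S) 1)
    simp only [mul_one] at e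
    rw [e, h4, mul_one]

variable {m : (S → ℝ) → ℝ}

theorem Mean.ind_nonneg (h : Mean m) (A : Set S) : 0 ≤ m (A.indicator fun _ => 1) := by
  rw [← h.const 0]
  exact h.mono _ _ (Bd.const 0) (Bd.ind A) fun s => by by_cases hs : s ∈ A <;> simp [hs]

/-- The filter of sets whose complement has mean zero. -/
def Mean.fil (h : Mean m) : Filter S where
  sets := {A | m (Aᶜ.indicator fun _ => 1) ≤ 0}
  univ_sets := by
    show m _ ≤ 0
    rw [compl_univ]
    have e : (∅ : Set S).indicator (fun _ => (1 : ℝ)) = fun _ => 0 := by funext s; simp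
    rw [e, h.const]
  sets_of_superset := fun {A B} hA hAB => by
    refine le_trans (h.mono _ _ (Bd.ind _) (Bd.ind _) fun s => ?_) hA
    by_cases hs : s ∈ A
    · simp [hs, hAB hs]
    · by_cases hs' : s ∈ B <;> simp [hs, hs']
  inter_sets := fun {A B} hA hB => by
    have h1 := h.add _ _ (Bd.ind Aᶜ) (Bd.ind Bᶜ)
    have h2 := h.mono _ _ (Bd.ind (A ∩ B)ᶜ) ((Bd.ind Aᶜ).add (Bd.ind Bᶜ)) fun s => by
      by_cases hs : s ∈ A <;> by_cases hs' : s ∈ B <;> simp [hs, hs']
    change m _ ≤ 0 at hA hB ⊢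
    linarith

theorem Mean.mem_fil (h : Mean m) (A : Set S) :
    A ∈ h.fil ↔ m (Aᶜ.indicator fun _ => 1) ≤ 0 := Iff.rfl

theorem Mean.neBot (h : Mean m) : h.fil.NeBot := by
  rw [neBot_iff, Ne, ← empty_mem_iff_bot, h.mem_fil, compl_empty]
  have e : (univ : Set S).indicator (fun _ => (1 : ℝ)) = fun _ => 1 := by funext s; simp
  rw [e, h.const]
  norm_num

theorem Mean.fil_inv (h : Mean m) (a : S) : map (fun t => a * t) h.fil = h.fil := by
  ext B
  rw [mem_map, h.mem_fil, h.mem_fil, ← h.inv _ a (Bd.ind Bᶜ)]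
  have e : ((fun t => a * t) ⁻¹' B)ᶜ.indicator (fun _ => (1 : ℝ)) =
      fun s => Bᶜ.indicator (fun _ => (1 : ℝ)) (a * s) := by
    funext s
    by_cases hs : a * s ∈ B <;> simp [hs]
  rw [e]

theorem Mean.le_of_eventually (h : Mean m) {f : S → ℝ} (hf : Bd f) {c : ℝ}
    (hc : ∀ᶠ s in h.fil, f s ≤ c) : m f ≤ c := by
  obtain ⟨M, hM⟩ := hf
  have h1 : m ({s | f s ≤ c}ᶜ.indicator fun _ => 1) ≤ 0 := hc
  have h2 := h.mono f _ ⟨M, hM⟩ ((Bd.const c).add ((Bd.ind {s | f s ≤ c}ᶜ).smul |M - c|))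
    fun s => by
      by_cases hs : f s ≤ c
      · simp [hs]
      · have a1 := le_abs_self (f s)
        have a2 := le_abs_self (M - c)
        have a3 := hM s
        simp only [mem_compl_iff, mem_setOf_eq, hs, not_false_eq_true, indicator_of_mem, mul_one]
        linarith
  rw [h.add _ _ (Bd.const c) ((Bd.ind _).smul _), h.const, h.smul _ _ (Bd.ind _)] at h2
  have h3 := mul_nonpos_of_nonneg_of_nonpos (abs_nonneg (M - c)) h1
  linarith

theorem Mean.eventually_ge (h : Mean m) {f : S → ℝ} (hf : Bd f) {r : ℝ} (hr : r ≤ m f)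
    (hc : ∀ ε > 0, ∀ᶠ s in h.fil, f s ≤ r + ε) {ε : ℝ} (hε : 0 < ε) :
    ∀ᶠ s in h.fil, r - ε ≤ f s := by
  show m ({s | r - ε ≤ f s}ᶜ.indicator fun _ => 1) ≤ 0
  have h1 : ε * m ({s | r - ε ≤ f s}ᶜ.indicator fun _ => 1) ≤ 0 := by
    refine le_of_forall_pos_le_add fun δ hδ => ?_
    have h2 := h.le_of_eventually (hf.add ((Bd.ind {s | r - ε ≤ f s}ᶜ).smul ε)) (c := r + δ) (by
      filter_upwards [hc δ hδ] with s hs
      by_cases hs' : r - ε ≤ f s
      · rw [indicator_of_notMem (by simpa only [mem_compl_iff, mem_setOf_eq, not_not] using hs'),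
          mul_zero, add_zero]
        exact hs
      · simp only [mem_compl_iff, mem_setOf_eq, hs', not_false_eq_true, indicator_of_mem,
          mul_one]
        rw [not_le] at hs'
        linarith)
    rw [h.add _ _ hf ((Bd.ind _).smul _), h.smul _ _ (Bd.ind _)] at h2
    linarith
  by_contra hcon
  rw [not_le] at hcon
  exact absurd h1 (not_le.2 (mul_pos hε hcon))

variable {X : Type*} [NormedAddCommGroup X] [NormedSpace ℝ X]

theorem Bd.dual {ι : Type*} {x : ι → X} {M : ℝ} (hM : ∀ s, ‖x s‖ ≤ M) (f : StrongDual ℝ X) :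
    Bd fun s => f (x s) :=
  ⟨‖f‖ * M, fun s => (f.le_opNorm _).trans (mul_le_mul_of_nonneg_left (hM s) (norm_nonneg _))⟩

theorem Bd.dist {ι : Type*} {x : ι → X} {M : ℝ} (hM : ∀ s, ‖x s‖ ≤ M) (y : X) :
    Bd fun s => ‖x s - y‖ :=
  ⟨M + ‖y‖, fun s => by
    rw [abs_norm]
    exact (norm_sub_le _ _).trans (add_le_add (hM s) le_rfl)⟩

/-- The barycentre of a bounded family with respect to a mean. -/
theorem Mean.bary (h : Mean m) (hX : Function.Surjective (NormedSpace.inclusionInDoubleDual ℝ X))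
    (x : S → X) {M : ℝ} (hM : ∀ s, ‖x s‖ ≤ M) :
    ∃ z : X, ∀ f : StrongDual ℝ X, f z = m fun s => f (x s) := by
  let L : StrongDual ℝ X →ₗ[ℝ] ℝ :=
    { toFun := fun f => m fun s => f (x s)
      map_add' := fun f g => h.add _ _ (Bd.dual hM f) (Bd.dual hM g)
      map_smul' := fun c f => h.smul _ c (Bd.dual hM f) }
  have hbd : ∀ f : StrongDual ℝ X, ‖L f‖ ≤ M * ‖f‖ := by
    intro f
    have h0 : ∀ s, |f (x s)| ≤ M * ‖f‖ := fun s => by
      rw [mul_comm]
      exact (f.le_opNorm _).trans (mul_le_mul_of_nonneg_left (hM s) (norm_nonneg _))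
    rw [Real.norm_eq_abs, abs_le]
    constructor
    · rw [← h.const (-(M * ‖f‖))]
      exact h.mono _ _ (Bd.const _) (Bd.dual hM f) fun s => (abs_le.1 (h0 s)).1
    · rw [← h.const (M * ‖f‖)]
      exact h.mono _ _ (Bd.dual hM f) (Bd.const _) fun s => (abs_le.1 (h0 s)).2
  obtain ⟨z, hz⟩ := hX (L.mkContinuous M hbd)
  refine ⟨z, fun f => ?_⟩
  have h2 : (NormedSpace.inclusionInDoubleDual ℝ X z) f = L.mkContinuous M hbd f := by rw [hz]
  rw [NormedSpace.dual_def] at h2
  exact h2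

/-- Left amenable semigroups fix a point of every minimal set. -/
theorem fixed_amenable (hX : Function.Surjective (NormedSpace.inclusionInDoubleDual ℝ X))
    [Nonempty S] (h : Mean m)
    {K : Set X} {T : S → X → X} (hK : MinFam T K) (hb : Bornology.IsBounded K)
    (hT : ∀ s, NE K (T s)) (hmul : ∀ s t, ∀ x ∈ K, T (s * t) x = T s (T t x)) :
    ∃ y ∈ K, ∀ s, T s y = y := by
  haveI := h.neBot
  obtain ⟨x, hx⟩ := hK.ne
  obtain ⟨M, hM⟩ := hb.exists_norm_le
  have hM' : ∀ s, ‖T s x‖ ≤ M := fun s => hM _ (hK.maps s hx)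
  set l : Filter X := map (fun t => T t x) h.fil with hl_def
  have hl : ∀ᶠ u in l, u ∈ K := eventually_map.2 (Eventually.of_forall fun t => hK.maps t hx)
  have hinv : ∀ s, map (T s) l = l := push_inv hmul h.fil_inv hx
  let σ : X → ℝ := fun y => m fun t => ‖T t x - y‖
  have hσ1 : ∀ y z, σ y ≤ σ z + ‖z - y‖ := by
    intro y z
    have h1 := h.mono _ _ (Bd.dist hM' y) ((Bd.dist hM' z).add (Bd.const ‖z - y‖)) fun t => by
      calc ‖T t x - y‖ = ‖(T t x - z) + (z - y)‖ := by rw [sub_add_sub_cancel]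
        _ ≤ _ := norm_add_le _ _
    rwa [h.add _ _ (Bd.dist hM' z) (Bd.const _), h.const] at h1
  have hσ2 : ∀ s y, σ y = m fun t => ‖T s (T t x) - y‖ := by
    intro s y
    have h1 := h.inv _ s (Bd.dist hM' y)
    simp only [hmul s _ x hx] at h1
    exact h1.symm
  have hσ : ∀ y ∈ K, ∀ z ∈ K, σ z ≤ σ y := by
    intro y hy
    have hD : {z | z ∈ K ∧ σ z ≤ σ y} = K := by
      refine hK.min _ (fun z hz => hz.1) ⟨y, hy, le_rfl⟩ ?_ ?_ ?_
      · refine isClosed_of_closure_subset fun b hb => ?_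
        refine ⟨closure_minimal (fun z hz => hz.1) hK.cl hb, ?_⟩
        refine le_of_forall_pos_le_add fun ε hε => ?_
        obtain ⟨b', hb', hbb⟩ := Metric.mem_closure_iff.1 hb ε hε
        rw [dist_comm, dist_eq_norm] at hbb
        have h1 := hσ1 b b'
        have h2 := hb'.2
        linarith
      · intro z hz w hw a b ha hb hab
        refine ⟨hK.co hz.1 hw.1 ha hb hab, ?_⟩
        have h1 := h.mono _ _ (Bd.dist hM' (a • z + b • w))
          (((Bd.dist hM' z).smul a).add ((Bd.dist hM' w).smul b))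
          fun t => norm_sub_combo (T t x) z w ha hb hab
        rw [h.add _ _ ((Bd.dist hM' z).smul a) ((Bd.dist hM' w).smul b),
          h.smul _ _ (Bd.dist hM' z), h.smul _ _ (Bd.dist hM' w)] at h1
        have h2 := mul_le_mul_of_nonneg_left hz.2 ha
        have h3 := mul_le_mul_of_nonneg_left hw.2 hb
        calc σ (a • z + b • w) ≤ a * σ z + b * σ w := h1
          _ ≤ a * σ y + b * σ y := add_le_add h2 h3
          _ = σ y := by rw [← add_mul, hab, one_mul]
      · intro s z hz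
        refine ⟨hK.maps s hz.1, le_trans ?_ hz.2⟩
        rw [hσ2 s]
        exact h.mono _ _ (Bd.dist (fun t => hM _ (hK.maps s (hK.maps t hx))) _) (Bd.dist hM' z)
          fun t => (hT s).2 _ (hK.maps t hx) _ hz.1
    intro z hz
    rw [← hD] at hz
    exact hz.2
  obtain ⟨z, hz⟩ := h.bary hX (fun t => T t x) hM'
  have hzK : z ∈ K := by
    by_contra hcon
    obtain ⟨f, c, hf0, hfc⟩ := geometric_hahn_banach_point_closed hK.co hK.cl hcon
    have h1 := h.mono _ _ (Bd.const c) (Bd.dual hM' f) fun t => (hfc _ (hK.maps t hx)).le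
    rw [h.const, ← hz f] at h1
    linarith
  have hzr : ∀ y ∈ K, ‖y - z‖ ≤ σ x := by
    intro y hy
    obtain ⟨f, hf1, hf2⟩ := exists_dual_vector'' ℝ (z - y)
    have h1 := h.mono _ _ (Bd.dual hM' f) ((Bd.dist hM' y).add (Bd.const (f y))) fun t => by
      have := dual_le_one hf1 (T t x - y)
      rw [map_sub] at this
      linarith
    rw [h.add _ _ (Bd.dist hM' y) (Bd.const _), h.const, ← hz f] at h1
    have h2 : f z - f y = ‖z - y‖ := by simpa using hf2
    have h3 := hσ x hx y hy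
    rw [norm_sub_rev]
    change f z ≤ σ y + f y at h1
    linarith
  have hnear : Near K l (σ x) = K :=
    hK.near hT hl hinv (y := z) ⟨hzK, fun ε hε => hl.mono fun u hu => by
      have := hzr u hu
      linarith⟩
  refine fixed_of_far hX hK hb hT hmul (V := l) le_rfl hl hinv hnear fun s v hv ε hε => ?_
  rw [hl_def, eventually_map]
  refine h.eventually_ge (f := fun t => ‖T s (T t x) - v‖)
    (Bd.dist (fun t => hM _ (hK.maps s (hK.maps t hx))) _) ?_ (fun δ hδ => ?_) hε
  · rw [← hσ2 s]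
    exact hσ v hv x hx
  · have h1 : v ∈ Near K l (σ x) := by rw [hnear]; exact hv
    have h2 := h1.2 δ hδ
    rwa [← hinv s, eventually_map, hl_def, eventually_map] at h2

end Vale.Agent.N079
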