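import Vale.Agent.N079.Game

/-! The core theorem: a minimal invariant set of a family of nonexpansive maps that carries an
invariant filter with simultaneously far translates has radius zero. -/

set_option linter.all false

open Filter Topology Set

namespace Vale.Agent.N079

open Vale.Agent.P079 Vale.Agent.P079.H880

variable {X : Type*} [NormedAddCommGroup X] [NormedSpace ℝ X]

/-- The data of the core theorem. -/
structure Setup (K : Set X) (G : Set (X → X)) (P : (X → X) → Prop) (l U : Filter X) (r : ℝ)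
    (b0 : X) : Prop where
  cl : IsClosed K
  co : Convex ℝ K
  bd : Bornology.IsBounded K
  neG : ∀ g ∈ G, NE K g
  min : ∀ D ⊆ K, D.Nonempty → IsClosed D → Convex ℝ D → (∀ g ∈ G, MapsTo g D D) → D = K
  lK : ∀ᶠ u in l, u ∈ K
  inv : ∀ g ∈ G, map g l = l
  near : ∀ y ∈ K, ∀ ε > 0, ∀ᶠ u in l, ‖u - y‖ ≤ r + ε
  Ule : U ≤ l
  Pid : P (fun x => x)
  Pcomp : ∀ γ, P γ → ∀ g ∈ G, P (fun x => γ (g x))
  far : ∀ γ, P γ → ∀ v ∈ K, ∀ ε > 0, ∀ᶠ u in U, r - ε ≤ ‖γ u - v‖
  b0K : b0 ∈ K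
  wlim : ∀ f : StrongDual ℝ X, Tendsto (fun u => f u) U (𝓝 (f b0))

/-- Contexts `Ψ` with pure part `γ` and weight `W`. -/
structure Cx (K : Set X) (P : (X → X) → Prop) (l : Filter X) (r : ℝ) (Ψ γ : X → X) (W : ℝ) :
    Prop where
  W0 : 0 ≤ W
  W1 : W ≤ 1
  pure : P γ
  tend : Tendsto γ l l
  maps : MapsTo Ψ K K
  lip : ∀ x ∈ K, ∀ y ∈ K, ‖Ψ x - Ψ y‖ ≤ W * ‖x - y‖
  far : ∀ δ > 0, ∀ᶠ u in l, ∀ x ∈ K, ‖Ψ x - γ u‖ ≤ (1 - W) * r + W * ‖x - u‖ + δ

variable {K : Set X} {G : Set (X → X)} {P : (X → X) → Prop} {l U : Filter X} {r : ℝ} {b0 : X}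

theorem Cx.one (S : Setup K G P l U r b0) : Cx K P l r (fun x => x) (fun x => x) 1 where
  W0 := zero_le_one
  W1 := le_rfl
  pure := S.Pid
  tend := tendsto_id
  maps := fun x hx => hx
  lip := fun x _ y _ => by simp
  far := fun δ hδ => Eventually.of_forall fun u x _ => by linarith

theorem Cx.comp (S : Setup K G P l U r b0) {Ψ γ : X → X} {W : ℝ} (h : Cx K P l r Ψ γ W)
    {g : X → X} (hg : g ∈ G) : Cx K P l r (fun x => Ψ (g x)) (fun x => γ (g x)) W where
  W0 := h.W0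
  W1 := h.W1
  pure := S.Pcomp γ h.pure g hg
  tend := h.tend.comp (S.inv g hg).le
  maps := fun x hx => h.maps ((S.neG g hg).1 hx)
  lip := fun x hx y hy =>
    (h.lip _ ((S.neG g hg).1 hx) _ ((S.neG g hg).1 hy)).trans
      (mul_le_mul_of_nonneg_left ((S.neG g hg).2 x hx y hy) h.W0)
  far := fun δ hδ => by
    have ht : Tendsto g l l := (S.inv g hg).le
    filter_upwards [ht.eventually (h.far δ hδ), S.lK] with u hu huK x hx
    have h1 := hu (g x) ((S.neG g hg).1 hx)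
    have h2 := mul_le_mul_of_nonneg_left ((S.neG g hg).2 x hx u huK) h.W0
    linarith

theorem Cx.aff (S : Setup K G P l U r b0) {Ψ γ : X → X} {W : ℝ} (h : Cx K P l r Ψ γ W)
    {c : X} (hc : c ∈ K) {v w : ℝ} (hv : 0 ≤ v) (hw : 0 ≤ w) (hvw : v + w = 1) :
    Cx K P l r (fun x => Ψ (v • c + w • x)) γ (w * W) where
  W0 := mul_nonneg hw h.W0
  W1 := by
    have h1 := h.W0
    have h2 := h.W1
    nlinarith
  pure := h.pure
  tend := h.tend
  maps := fun x hx => h.maps (S.co hc hx hv hw hvw)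
  lip := fun x hx y hy => by
    have h1 := h.lip _ (S.co hc hx hv hw hvw) _ (S.co hc hy hv hw hvw)
    have h2 : (v • c + w • x) - (v • c + w • y) = w • (x - y) := by module
    rw [h2, norm_smul, Real.norm_of_nonneg hw] at h1
    calc ‖Ψ (v • c + w • x) - Ψ (v • c + w • y)‖ ≤ W * (w * ‖x - y‖) := h1
      _ = w * W * ‖x - y‖ := by ring
  far := fun δ hδ => by
    filter_upwards [h.far (δ / 2) (half_pos hδ), S.near c hc (δ / 2) (half_pos hδ)]
      with u h1 hu x hx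
    have h2 := h1 _ (S.co hc hx hv hw hvw)
    have h3 : ‖(v • c + w • x) - u‖ ≤ v * (r + δ / 2) + w * ‖x - u‖ := by
      have e : (v • c + w • x) - u = v • (c - u) + w • (x - u) := by
        have : u = (v + w) • u := by rw [hvw, one_smul]
        calc (v • c + w • x) - u = (v • c + w • x) - (v + w) • u := by rw [← this]
          _ = _ := by module
      rw [e]
      calc ‖v • (c - u) + w • (x - u)‖ ≤ ‖v • (c - u)‖ + ‖w • (x - u)‖ := norm_add_le _ _
        _ = v * ‖u - c‖ + w * ‖x - u‖ := by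
            rw [norm_smul, norm_smul, Real.norm_of_nonneg hv, Real.norm_of_nonneg hw,
              norm_sub_rev c u]
        _ ≤ v * (r + δ / 2) + w * ‖x - u‖ := by gcongr
    have h4 := mul_le_mul_of_nonneg_left h3 h.W0
    have h5 : W * v ≤ 1 := by
      have a1 := h.W0
      have a2 := h.W1
      nlinarith
    have h6 : W * v * (δ / 2) ≤ δ / 2 := by nlinarith
    have hv' : v = 1 - w := by linarith
    calc ‖Ψ (v • c + w • x) - γ u‖ ≤ (1 - W) * r + W * ‖(v • c + w • x) - u‖ + δ / 2 := h2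
      _ ≤ (1 - W) * r + W * (v * (r + δ / 2) + w * ‖x - u‖) + δ / 2 := by linarith
      _ = (1 - w * W) * r + w * W * ‖x - u‖ + W * v * (δ / 2) + δ / 2 := by rw [hv']; ring
      _ ≤ (1 - w * W) * r + w * W * ‖x - u‖ + δ := by linarith

/-- The pair `(a, b)` can be replaced by a pair with second point `b0`, with a loss `δ`. -/
def Red (K : Set X) (P : (X → X) → Prop) (l : Filter X) (r : ℝ) (b0 : X) (δ : ℝ) (a b : X) :
    Prop :=
  ∀ (F : StrongDual ℝ X) (Ψ γ : X → X) (W lam : ℝ), Cx K P l r Ψ γ W →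
    lam * W < F (Ψ a - Ψ b) → ∃ (Θ γ' : X → X) (W' : ℝ) (a' : X), Cx K P l r Θ γ' W' ∧
      a' ∈ K ∧ (lam - δ * ‖F‖) * W' < F (Θ a' - Θ b0)

theorem red_all (S : Setup K G P l U r b0) {b : X} (hb : b ∈ K) :
    ∀ δ > 0, ∀ᶠ a in l, Red K P l r b0 δ a b := by
  have hD : {b | b ∈ K ∧ ∀ δ > 0, ∀ᶠ a in l, Red K P l r b0 δ a b} = K := by
    refine S.min _ (fun z hz => hz.1) ⟨b0, S.b0K, ?_⟩ ?_ ?_ ?_
    · intro δ hδ
      filter_upwards [S.lK] with a ha F Ψ γ W lam hΨ hlt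
      refine ⟨Ψ, γ, W, a, hΨ, ha, lt_of_le_of_lt ?_ hlt⟩
      have h1 : 0 ≤ δ * ‖F‖ := mul_nonneg hδ.le (norm_nonneg _)
      exact mul_le_mul_of_nonneg_right (by linarith) hΨ.W0
    · refine isClosed_of_closure_subset fun b hb => ?_
      have hbK : b ∈ K := closure_minimal (fun z hz => hz.1) S.cl hb
      refine ⟨hbK, fun δ hδ => ?_⟩
      obtain ⟨b', hb', hbb⟩ := Metric.mem_closure_iff.1 hb (δ / 2) (half_pos hδ)
      rw [dist_comm, dist_eq_norm] at hbb
      filter_upwards [hb'.2 (δ / 2) (half_pos hδ)] with a ha F Ψ γ W lam hΨ hlt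
      have h1 : F (Ψ b' - Ψ b) ≤ δ / 2 * ‖F‖ * W := by
        have h2 := dual_le (le_refl ‖F‖) (Ψ b' - Ψ b)
        have h3 := (hΨ.lip _ hb'.1 _ hbK).trans (mul_le_mul_of_nonneg_left hbb.le hΨ.W0)
        have h4 := mul_le_mul_of_nonneg_left h3 (norm_nonneg F)
        linarith
      obtain ⟨Θ, γ', W', a', h5, h6, h7⟩ := ha F Ψ γ W (lam - δ / 2 * ‖F‖) hΨ (by
        rw [map_sub] at hlt h1 ⊢
        linarith)
      refine ⟨Θ, γ', W', a', h5, h6, lt_of_eq_of_lt ?_ h7⟩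
      ring
    · intro b1 h1 b2 h2 s t hs ht hst
      refine ⟨S.co h1.1 h2.1 hs ht hst, fun δ hδ => ?_⟩
      filter_upwards [h1.2 δ hδ, h2.2 δ hδ, S.lK] with a ha1 ha2 ha F Ψ γ W lam hΨ hlt
      have c1 := hΨ.aff S ha hs ht hst
      have c2 := hΨ.aff S h2.1 ht hs (by linarith)
      have e1 : s • a + t • a = a := by rw [← add_smul, hst, one_smul]
      by_cases hc : lam * (t * W) < F (Ψ (s • a + t • a) - Ψ (s • a + t • b2))
      · exact ha2 F _ γ _ lam c1 hc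
      · refine ha1 F _ γ _ lam c2 ?_
        rw [not_lt, e1] at hc
        show lam * (s * W) < F (Ψ (t • b2 + s • a) - Ψ (t • b2 + s • b1))
        rw [add_comm (t • b2), add_comm (t • b2)]
        rw [map_sub] at hlt hc ⊢
        have e2 : lam * W = lam * (s * W) + lam * (t * W) := by
          rw [← mul_add, ← add_mul, hst, one_mul]
        linarith
    · intro g hg b1 h1
      refine ⟨(S.neG g hg).1 h1.1, fun δ hδ => ?_⟩
      rw [← S.inv g hg, eventually_map, S.inv g hg]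
      filter_upwards [h1.2 δ hδ] with a ha F Ψ γ W lam hΨ hlt
      exact ha F _ _ W lam (hΨ.comp S hg) hlt
  rw [← hD] at hb
  exact hb.2

/-- The step: from a pair with second point `b0` to a new pair, gaining `r`. -/
theorem step (hX : Function.Surjective (NormedSpace.inclusionInDoubleDual ℝ X)) [U.NeBot]
    (S : Setup K G P l U r b0) {Θ γ : X → X} {W : ℝ} (hΘ : Cx K P l r Θ γ W) {a : X}
    (ha : a ∈ K) (F : StrongDual ℝ X) {lam : ℝ} (hlt : lam * W < F (Θ a - Θ b0))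
    {E : Set X} (hE : E.Finite) (hEK : E ⊆ K) {η : ℝ} (hη : 0 < η) {B : X → Prop}
    (hB : ∀ᶠ u in l, B u) :
    ∃ (Ψ : X → X) (W' : ℝ) (u : X) (φ : StrongDual ℝ X), Cx K P l r Ψ γ W' ∧ u ∈ K ∧ B u ∧
      ‖φ‖ ≤ 1 ∧ (∀ v ∈ E, ∀ v' ∈ E, φ (v - v') ≤ η) ∧
      (lam + r) * W' < (φ - F) (Ψ u - Ψ a) := by
  by_contra hcon
  push Not at hcon
  obtain ⟨M, hM⟩ := S.bd.exists_norm_le
  obtain ⟨κ, hκ, hκe⟩ : ∃ κ : ℝ, 0 < κ ∧ F (Θ a - Θ b0) = lam * W + 2 * κ :=
    ⟨(F (Θ a - Θ b0) - lam * W) / 2, by linarith, by ring⟩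
  have hW0 := hΘ.W0
  have hW1 := hΘ.W1
  have hΘc : ContinuousOn Θ K := continuousOn_of_ne fun x hx y hy =>
    (hΘ.lip x hx y hy).trans (by have := norm_nonneg (x - y); nlinarith)
  let T : Set X → Set (X × ℝ) := fun A => insert (a, 0) ((fun x => (x, (1 : ℝ))) '' A)
  let Q : Set X → Prop := fun A => A ⊆ K ∧ ∃ η' < κ, ∀ p ∈ convexHull ℝ (T A),
    F (Θ a - Θ p.1) ≤ lam * W * p.2 + η'
  have hfst : ∀ (A D : Set X), Convex ℝ D → a ∈ D → A ⊆ D →
      ∀ p ∈ convexHull ℝ (T A), p.1 ∈ D := by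
    intro A D hD haD hAD
    refine convexHull_min (t := {p : X × ℝ | p.1 ∈ D}) ?_ ?_
    · rintro p (rfl | ⟨x, hx, rfl⟩)
      · exact haD
      · exact hAD hx
    · intro p hp q hq s t hs ht hst
      exact hD hp hq hs ht hst
  have hQ0 : Q ∅ := by
    refine ⟨empty_subset _, 0, hκ, fun p hp => ?_⟩
    have e : T ∅ = {(a, 0)} := by simp [T]
    rw [e, convexHull_singleton, mem_singleton_iff] at hp
    subst hp
    simp
  have hQs : ∀ A : Set X, A.Finite → Q A → ∀ᶠ u in U, Q (insert u A) := by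
    rintro A hA ⟨hAK, η', hη', hp⟩
    obtain ⟨ε, hε, hε1, hε2⟩ : ∃ ε : ℝ, 0 < ε ∧ 2 * ε ≤ η ∧ η' + 3 * ε < κ := by
      refine ⟨min (η / 2) ((κ - η') / 4), lt_min (by linarith) (by linarith), ?_, ?_⟩
      · have := min_le_left (η / 2) ((κ - η') / 4)
        linarith
      · have := min_le_right (η / 2) ((κ - η') / 4)
        linarith
    have hTf : (T A).Finite := (hA.image _).insert _
    have hH : IsCompact (Prod.fst '' convexHull ℝ (T A)) :=
      (hTf.isCompact_convexHull ℝ).image continuous_fst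
    have hHK : Prod.fst '' convexHull ℝ (T A) ⊆ K := by
      rintro _ ⟨p, hp, rfl⟩
      exact hfst A K S.co ha hAK p hp
    have hC : IsCompact (Θ '' (Prod.fst '' convexHull ℝ (T A)) ∪ E) :=
      (hH.image_of_continuousOn (hΘc.mono hHK)).union hE.isCompact
    have hCK : Θ '' (Prod.fst '' convexHull ℝ (T A)) ∪ E ⊆ K := by
      refine union_subset ?_ hEK
      rintro _ ⟨y, hy, rfl⟩
      exact hΘ.maps (hHK hy)
    have e1 := exists_phi S.co U γ r (S.far γ hΘ.pure)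
      (fun v hv ε hε => (hΘ.tend.eventually (S.near v hv ε hε)).filter_mono S.Ule) hC hCK hε
    have e2 : ∀ᶠ u in l, ∀ y ∈ insert a A, ‖u - y‖ ≤ r + ε := by
      rw [Filter.eventually_all_finite (hA.insert a)]
      exact fun y hy => S.near y (insert_subset ha hAK hy) ε hε
    filter_upwards [e1, (e2.and (hB.and (S.lK.and (hΘ.far ε hε)))).filter_mono S.Ule]
      with u ⟨φ, hφ1, hφ2⟩ ⟨hu1, hu2, hu3, hu4⟩
    refine ⟨insert_subset hu3 hAK, η' + 3 * ε, hε2, fun p' hp' => ?_⟩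
    have e : T (insert u A) = insert (u, 1) (T A) := by
      simp only [T, image_insert_eq]
      exact insert_comm _ _ _
    rw [e, convexHull_insert (insert_nonempty _ _), mem_convexJoin] at hp'
    obtain ⟨_, rfl, p, hpH, w, v, hw, hv, hwv, rfl⟩ := hp'
    have hq : w • ((a, 0) : X × ℝ) + v • p ∈ convexHull ℝ (T A) :=
      convex_convexHull ℝ _ (subset_convexHull ℝ _ (mem_insert _ _)) hpH hw hv hwv
    have hpK : p.1 ∈ K := hfst A K S.co ha hAK p hpH
    have hpu : ‖p.1 - u‖ ≤ r + ε := by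
      rw [← mem_closedBall_iff_norm]
      refine hfst A _ (convex_closedBall u (r + ε)) ?_ (fun y hy => ?_) p hpH
      · rw [mem_closedBall_iff_norm, norm_sub_rev]
        exact hu1 a (mem_insert _ _)
      · rw [mem_closedBall_iff_norm, norm_sub_rev]
        exact hu1 y (mem_insert_of_mem _ hy)
    have c1 := hΘ.aff S hpK hv hw (by linarith)
    have h1 := hcon _ _ u φ c1 hu3 hu2 hφ1 (by
      intro x hx x' hx'
      have a1 := (hφ2 x (Or.inr hx)).1
      have a2 := (hφ2 x' (Or.inr hx')).2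
      rw [map_sub] at a1 a2 ⊢
      linarith)
    have h2 := hp _ hq
    have eq1 : (w • ((a, 0) : X × ℝ) + v • p).1 = v • p.1 + w • a := by
      simp only [Prod.fst_add, Prod.smul_fst]
      exact add_comm _ _
    have eq2 : (w • ((a, 0) : X × ℝ) + v • p).2 = v * p.2 := by
      simp only [Prod.snd_add, Prod.smul_snd, smul_eq_mul, mul_zero, zero_add]
    have eq3 : (w • ((u, 1) : X × ℝ) + v • p).1 = v • p.1 + w • u := by
      simp only [Prod.fst_add, Prod.smul_fst]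
      exact add_comm _ _
    have eq4 : (w • ((u, 1) : X × ℝ) + v • p).2 = w + v * p.2 := by
      simp only [Prod.snd_add, Prod.smul_snd, smul_eq_mul, mul_one]
    have h3 := (hφ2 (Θ (v • p.1 + w • a)) (Or.inl ⟨_, ⟨_, hq, eq1⟩, rfl⟩)).1
    have h4 := hu4 _ (S.co hpK hu3 hv hw (by linarith) : v • p.1 + w • u ∈ K)
    have h5 : ‖v • p.1 + w • u - u‖ ≤ v * (r + ε) := by
      have e5 : v • p.1 + w • u - u = v • (p.1 - u) := by
        have : u = (w + v) • u := by rw [hwv, one_smul]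
        calc v • p.1 + w • u - u = v • p.1 + w • u - (w + v) • u := by rw [← this]
          _ = _ := by module
      rw [e5, norm_smul, Real.norm_of_nonneg hv]
      exact mul_le_mul_of_nonneg_left hpu hv
    have h6 := dual_le_one hφ1 (γ u - Θ (v • p.1 + w • u))
    rw [norm_sub_rev] at h6
    have h7 := mul_le_mul_of_nonneg_left h5 hW0
    have h8 : W * v * ε ≤ ε := by
      have : W * v ≤ 1 := by nlinarith
      nlinarith
    have h9 : W * (v * (r + ε)) = W * r - w * W * r + W * v * ε := by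
      have : v = 1 - w := by linarith
      rw [this]; ring
    rw [eq1, eq2] at h2
    rw [eq3, eq4]
    rw [ContinuousLinearMap.sub_apply] at h1
    simp only [map_sub] at h1 h2 h3 h6 ⊢
    nlinarith
  have hδ : 0 < κ / (‖F‖ + 1) := div_pos hκ (by have := norm_nonneg F; linarith)
  obtain ⟨A, -, ⟨hAK, η', hη', hp⟩, y, hy, hyb⟩ := mazur_game hX U (M := M)
    ((S.lK.filter_mono S.Ule).mono fun u hu => hM u hu) S.wlim Q hQ0 hQs hδ
  have hyK : y ∈ K := convexHull_min hAK S.co hy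
  have hy1 : (y, (1 : ℝ)) ∈ convexHull ℝ (T A) := by
    refine convexHull_min (t := {y : X | (y, (1 : ℝ)) ∈ convexHull ℝ (T A)}) ?_ ?_ hy
    · intro x hx
      exact subset_convexHull ℝ _ (mem_insert_of_mem _ ⟨x, hx, rfl⟩)
    · intro x hx x' hx' s t hs ht hst
      have := convex_convexHull ℝ (T A) hx hx' hs ht hst
      simp only [Prod.smul_mk, Prod.mk_add_mk, smul_eq_mul, mul_one, hst] at this
      exact this
  have h1 := hp _ hy1
  have h2 := dual_le (le_refl ‖F‖) (Θ y - Θ b0)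
  have h3 : ‖Θ y - Θ b0‖ ≤ κ / (‖F‖ + 1) := by
    refine (hΘ.lip _ hyK _ S.b0K).trans ?_
    have := norm_nonneg (y - b0)
    nlinarith
  have h4 : ‖F‖ * (κ / (‖F‖ + 1)) ≤ κ := by
    have h0 := norm_nonneg F
    rw [← mul_div_assoc, div_le_iff₀ (by linarith)]
    nlinarith
  have h5 := mul_le_mul_of_nonneg_left h3 (norm_nonneg F)
  simp only [map_sub, mul_one] at h1 h2 hκe
  linarith

/-- States of the recursion. -/
structure St (X : Type*) [NormedAddCommGroup X] [NormedSpace ℝ X] where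
  F : StrongDual ℝ X
  Ψ : X → X
  W : ℝ
  a : X
  b : X
  E : Set X

/-- The core theorem. -/
theorem core (hX : Function.Surjective (NormedSpace.inclusionInDoubleDual ℝ X)) [U.NeBot]
    (S : Setup K G P l U r b0) : r ≤ 0 := by
  by_contra hr
  rw [not_le] at hr
  haveI : l.NeBot := neBot_of_le S.Ule
  set η : ℕ → ℝ := fun i => r / 4 * (1 / ((i : ℝ) + 1)) with hη
  have hη0 : ∀ i, 0 < η i := fun i => by simp only [hη]; positivity
  have hη1 : ∀ i : ℕ, ((i : ℝ) + 1) * η i = r / 4 := fun i => by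
    simp only [hη]
    field_simp
  let Q : ℕ → St X → Prop := fun i s => ‖s.F‖ ≤ i ∧ s.a ∈ K ∧ s.b ∈ K ∧ s.E.Finite ∧ s.E ⊆ K ∧
    ‖s.a - s.b‖ ≤ r + η i ∧ (∃ γ, Cx K P l r s.Ψ γ s.W) ∧ ∃ c δ : ℝ, 0 ≤ δ ∧
      c + i * δ < r / 4 ∧ Red K P l r b0 δ s.a s.b ∧ (i * r - c) * s.W < s.F (s.Ψ s.a - s.Ψ s.b)
  let R : ℕ → St X → St X → Prop := fun i s s' => ‖s'.F + s.F‖ ≤ 1 ∧ s.E ⊆ s'.E ∧
    s.Ψ s.a ∈ s'.E ∧ s.Ψ s.b ∈ s'.E ∧ ∀ v ∈ s'.E, ∀ v' ∈ s'.E, (s'.F + s.F) (v - v') ≤ η i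
  obtain ⟨a0, ha1, ha2, ha3⟩ := (S.lK.and ((S.near b0 S.b0K _ (hη0 0)).and
    (red_all S S.b0K 1 one_pos))).exists
  have h0 : Q 0 ⟨0, fun x => x, 1, a0, b0, ∅⟩ := by
    refine ⟨by simp, ha1, S.b0K, finite_empty, empty_subset _, ha2, ⟨_, Cx.one S⟩, r / 8, 1,
      zero_le_one, ?_, ha3, ?_⟩
    · simp only [Nat.cast_zero, zero_mul, add_zero]
      linarith
    · simp only [Nat.cast_zero, zero_mul, ContinuousLinearMap.zero_apply]
      linarith
  have hnext : ∀ i s, Q i s → ∃ s', Q (i + 1) s' ∧ R i s s' := by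
    rintro i ⟨F, Ψ, W, a, b, E⟩ ⟨hF, ha, hb, hE, hEK, -, ⟨γ, hΨ⟩, c, δ, hδ, hc, hred, hlt⟩
    dsimp only at hF ha hb hE hEK hΨ hred hlt
    obtain ⟨Θ, γ', W', a', hΘ, ha', hlt'⟩ := hred F Ψ γ W _ hΨ hlt
    have hlt2 : (i * r - (c + i * δ)) * W' < F (Θ a' - Θ b0) := by
      refine lt_of_le_of_lt (mul_le_mul_of_nonneg_right ?_ hΘ.W0) hlt'
      have := mul_le_mul_of_nonneg_left hF hδ
      linarith
    have hi : (0 : ℝ) < (i : ℝ) + 1 := by positivity
    obtain ⟨δ', hδ', hδ2⟩ : ∃ δ' : ℝ, 0 < δ' ∧ c + i * δ + ((i : ℝ) + 1) * δ' < r / 4 := by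
      refine ⟨(r / 4 - (c + i * δ)) / 2 / ((i : ℝ) + 1), div_pos (by linarith) hi, ?_⟩
      rw [mul_div_cancel₀ _ hi.ne']
      linarith
    have hE' : (insert (Ψ a) (insert (Ψ b) E)).Finite := (hE.insert _).insert _
    have hEK' : insert (Ψ a) (insert (Ψ b) E) ⊆ K :=
      insert_subset (hΨ.maps ha) (insert_subset (hΨ.maps hb) hEK)
    obtain ⟨Ψ', W'', u, φ, c1, hu, ⟨hu1, hu2⟩, hφ1, hφ2, hgt⟩ := step hX S hΘ ha' F hlt2 hE' hEK'
      (hη0 i) ((S.near a' ha' _ (hη0 (i + 1))).and (red_all S ha' δ' hδ'))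
    refine ⟨⟨φ - F, Ψ', W'', u, a', insert (Ψ a) (insert (Ψ b) E)⟩,
      ⟨?_, hu, ha', hE', hEK', hu1, ⟨_, c1⟩, c + i * δ, δ', hδ'.le, ?_, hu2, ?_⟩, ?_, ?_, ?_, ?_,
      ?_⟩
    · have := norm_sub_le φ F
      rw [Nat.cast_succ]
      dsimp only
      linarith
    · rw [Nat.cast_succ]
      exact hδ2
    · rw [Nat.cast_succ]
      dsimp only
      refine lt_of_eq_of_lt ?_ hgt
      ring
    · dsimp only
      rwa [sub_add_cancel]
    · exact (subset_insert _ _).trans (subset_insert _ _)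
    · exact mem_insert _ _
    · exact mem_insert_of_mem _ (mem_insert _ _)
    · dsimp only
      rwa [sub_add_cancel]
  obtain ⟨s, hs0, hQ, hR⟩ := exists_seq_dep Q R _ h0 hnext
  have hF0 : (s 0).F = 0 := by rw [hs0]
  have hm : Monotone fun n => (s n).E := monotone_nat_of_le_succ fun n => (hR n).2.1
  set x : ℕ → X := fun i => (s i).Ψ (s i).a - (s i).Ψ (s i).b with hx
  have hxn : ∀ i, ‖x i‖ ≤ (s i).W * (r + η i) := by
    intro i
    obtain ⟨-, ha, hb, -, -, hab, ⟨γ, hΨ⟩, -⟩ := hQ i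
    exact (hΨ.lip _ ha _ hb).trans (mul_le_mul_of_nonneg_left hab hΨ.W0)
  have hW : ∀ i, 0 < (s i).W := by
    intro i
    obtain ⟨-, -, -, -, -, -, ⟨γ, hΨ⟩, c, δ, -, -, -, hlt⟩ := hQ i
    rcases eq_or_lt_of_le hΨ.W0 with h | h
    · exfalso
      have h1 := hxn i
      rw [← h, zero_mul, norm_le_zero_iff] at h1
      change _ < (s i).F (x i) at hlt
      rw [← h, h1, map_zero, mul_zero] at hlt
      exact lt_irrefl _ hlt
    · exact h
  refine triangle_false hX (fun n => (s (n + 1)).F + (s n).F) (fun n => (hR n).1)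
    (fun i => ((s i).W)⁻¹ • x i) (M := 2 * r) (c := r / 2) (half_pos hr) (fun i => ?_)
    (fun i => ?_) (fun i n hn => ?_)
  · rw [norm_smul, norm_inv, Real.norm_of_nonneg (hW i).le, inv_mul_le_iff₀ (hW i)]
    refine (hxn i).trans (mul_le_mul_of_nonneg_left ?_ (hW i).le)
    have h1 := hη1 i
    have h2 := hη0 i
    have h3 : (0 : ℝ) ≤ i := Nat.cast_nonneg i
    nlinarith
  · simp only [map_smul, smul_eq_mul]
    rw [← mul_zero ((s i).W)⁻¹]
    refine Tendsto.const_mul _ ?_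
    have h1 : Tendsto η atTop (𝓝 0) := by
      have := (tendsto_one_div_add_atTop_nhds_zero_nat (𝕜 := ℝ)).const_mul (r / 4)
      rwa [mul_zero] at this
    refine squeeze_zero_norm' ?_ h1
    filter_upwards [eventually_ge_atTop i] with n hn
    have m1 : (s i).Ψ (s i).a ∈ (s (n + 1)).E := hm (Nat.succ_le_succ hn) (hR i).2.2.1
    have m2 : (s i).Ψ (s i).b ∈ (s (n + 1)).E := hm (Nat.succ_le_succ hn) (hR i).2.2.2.1
    have a1 := (hR n).2.2.2.2 _ m1 _ m2
    have a2 := (hR n).2.2.2.2 _ m2 _ m1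
    rw [Real.norm_eq_abs, abs_le]
    simp only [hx]
    rw [map_sub] at a1 a2 ⊢
    constructor <;> linarith
  · obtain ⟨-, -, -, -, -, -, -, c, δ, hδ, hc, -, hlt⟩ := hQ i
    change _ < (s i).F (x i) at hlt
    have h1 := (abs_le_of_chain (fun n => (s n).F) hF0 (fun n => (hR n).1) (x i) i).2 n hn
    have h2 := le_abs_self ((s i).F (x i))
    have h3 : (1 : ℝ) ≤ i := by exact_mod_cast Nat.succ_le_of_lt (lt_of_le_of_lt (Nat.zero_le n) hn)
    have h4 := mul_le_mul_of_nonneg_left (hxn i) (by linarith : (0 : ℝ) ≤ (i : ℝ) - 1)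
    have h5 := hη1 i
    have h6 := hη0 i
    have h7 : 0 ≤ (i : ℝ) * δ := mul_nonneg (by linarith) hδ
    have h8 := hW i
    rw [map_smul, smul_eq_mul, abs_mul, abs_of_pos (inv_pos.2 h8), le_inv_mul_iff₀ h8]
    have h9 : r / 2 ≤ (i * r - c) - ((i : ℝ) - 1) * (r + η i) := by nlinarith
    have h10 := mul_le_mul_of_nonneg_left h9 h8.le
    nlinarith

end Vale.Agent.N079
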