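import Vale.Agent.N079.Amen

/-! Common fixed points and the retraction, for maps of the set `C` itself. -/

set_option linter.all false

open Filter Topology Set

namespace Vale.Agent.N079

open Vale.Agent.P079 Vale.Agent.P079.H880

variable {X : Type*} [NormedAddCommGroup X] [NormedSpace ℝ X] {S : Type*} [Semigroup S]

/-- The two classes of semigroups treated here. -/
def Good (S : Type*) [Semigroup S] : Prop :=
  (∃ m : (S → ℝ) → ℝ, Mean m) ∨
    ((∀ a b : S, ∃ p q, a * p = b * q) ∧ ∀ a b : S, ∃ p q, p * a = q * b)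

theorem fixed_bounded (hX : Function.Surjective (NormedSpace.inclusionInDoubleDual ℝ X))
    (hS : Good S) {C : Set X} {T : S → X → X} (hT : ∀ s, NE C (T s))
    (hmul : ∀ s t, ∀ x ∈ C, T (s * t) x = T s (T t x)) {D : Set X} (hDC : D ⊆ C)
    (hne : D.Nonempty) (hcl : IsClosed D) (hco : Convex ℝ D) (hb : Bornology.IsBounded D)
    (hD : ∀ s, MapsTo (T s) D D) : ∃ y ∈ D, ∀ s, T s y = y := by
  rcases isEmpty_or_nonempty S with hE | hE
  · obtain ⟨y, hy⟩ := hne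
    exact ⟨y, hy, fun s => isEmptyElim s⟩
  obtain ⟨K, hKD, hK⟩ := exists_minFam hX hb hcl hco hne hD
  have hT' : ∀ s, NE K (T s) := fun s => (hT s).mono (hKD.trans hDC) (hK.maps s)
  have hmul' : ∀ s t, ∀ x ∈ K, T (s * t) x = T s (T t x) :=
    fun s t x hx => hmul s t x (hDC (hKD hx))
  have h : ∃ y ∈ K, ∀ s, T s y = y := by
    rcases hS with ⟨m, hm⟩ | ⟨h1, h2⟩
    · exact fixed_amenable hX hm hK (hb.subset hKD) hT' hmul'
    · exact fixed_reversible hX h1 h2 hK (hb.subset hKD) hT' hmul'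
  obtain ⟨y, hy, hfix⟩ := h
  exact ⟨y, hKD hy, hfix⟩

theorem fixed_orbit (hX : Function.Surjective (NormedSpace.inclusionInDoubleDual ℝ X))
    (hS : Good S) {C : Set X} (hcl : IsClosed C) (hco : Convex ℝ C) {T : S → X → X}
    (hT : ∀ s, NE C (T s)) (hmul : ∀ s t, ∀ x ∈ C, T (s * t) x = T s (T t x)) {x : X}
    (hx : x ∈ C) (hb : Bornology.IsBounded (range fun s => T s x)) :
    ∃ y ∈ C, ∀ s, T s y = y := by
  rcases isEmpty_or_nonempty S with hE | hE
  · exact ⟨x, hx, fun s => isEmptyElim s⟩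
  obtain ⟨L, hLn, hL⟩ : ∃ L : Filter S, L.NeBot ∧ ∀ a, map (fun t => a * t) L = L := by
    rcases hS with ⟨m, hm⟩ | ⟨h1, -⟩
    · exact ⟨hm.fil, hm.neBot, hm.fil_inv⟩
    · exact exists_tail_filter h1
  obtain ⟨D, hDC, h1, h2, h3, h4, h5⟩ := exists_bounded_invariant hcl hco hT hmul hL hx hb
  obtain ⟨y, hy, hfix⟩ := fixed_bounded hX hS hT hmul hDC h1 h2 h3 h4 h5
  exact ⟨y, hDC hy, hfix⟩

theorem semigroup_main (hX : Function.Surjective (NormedSpace.inclusionInDoubleDual ℝ X))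
    (hS : Good S) {C : Set X} (hcl : IsClosed C) (hco : Convex ℝ C) (T : S → C → C)
    (hT : ∀ (s : S) (a b : C), ‖(T s a : X) - (T s b : X)‖ ≤ ‖(a : X) - (b : X)‖)
    (hmul : ∀ (s t : S) (a : C), T (s * t) a = T s (T t a)) :
    ((∃ a : C, ∀ s, T s a = a) ↔
      ∃ a : C, Bornology.IsBounded (range fun s => (T s a : X))) ∧
    (Bornology.IsBounded C → ∃ r : C → C,
      (∀ a b : C, ‖(r a : X) - (r b : X)‖ ≤ ‖(a : X) - (b : X)‖) ∧
      (∀ (a : C) (s : S), T s (r a) = r a) ∧ ∀ a : C, (∀ s, T s a = a) → r a = a) := by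
  classical
  let A : S → X → X := fun s x => if h : x ∈ C then (T s ⟨x, h⟩ : X) else x
  have hA : ∀ (s : S) (x : X) (h : x ∈ C), A s x = (T s ⟨x, h⟩ : X) := by
    intro s x h
    simp only [A, dif_pos h]
  have hNE : ∀ s, NE C (A s) := by
    intro s
    refine ⟨fun x hx => ?_, fun x hx y hy => ?_⟩
    · rw [hA s x hx]
      exact (T s ⟨x, hx⟩).2
    · rw [hA s x hx, hA s y hy]
      exact hT s ⟨x, hx⟩ ⟨y, hy⟩
  have hAm : ∀ s t, ∀ x ∈ C, A (s * t) x = A s (A t x) := by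
    intro s t x hx
    rw [hA (s * t) x hx, hA t x hx, hA s _ (T t ⟨x, hx⟩).2, hmul]
  refine ⟨⟨?_, ?_⟩, fun hb => ?_⟩
  · rintro ⟨a, ha⟩
    refine ⟨a, (Bornology.isBounded_singleton (x := (a : X))).subset ?_⟩
    rintro _ ⟨s, rfl⟩
    exact congrArg Subtype.val (ha s)
  · rintro ⟨a, ha⟩
    have e : (fun s => A s a) = fun s => (T s a : X) := funext fun s => hA s a a.2
    obtain ⟨y, hy, hfix⟩ := fixed_orbit hX hS hcl hco hNE hAm a.2 (by rw [e]; exact ha)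
    exact ⟨⟨y, hy⟩, fun s => Subtype.ext (by rw [← hA s y hy]; exact hfix s)⟩
  · obtain ⟨r, ⟨hr1, hr2⟩, hr3, hr4⟩ := exists_retraction hX hcl hb hco
      (F := {x | x ∈ C ∧ ∀ s, A s x = x}) (fun x hx => hx.1) (range A)
      (by rintro _ ⟨s, rfl⟩; exact hNE s) (by rintro _ ⟨s, rfl⟩ x hx; exact hx.2 s)
      (fun K hKC h1 h2 h3 h4 => by
        obtain ⟨y, hy, hfix⟩ := fixed_bounded hX hS hNE hAm hKC h1 h2 h3 (hb.subset hKC)
          fun s => h4 _ ⟨s, rfl⟩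
        exact ⟨y, hy, hKC hy, hfix⟩)
    refine ⟨fun a => ⟨r a, hr1 a.2⟩, fun a b => hr2 a a.2 b b.2, fun a s => ?_, fun a ha => ?_⟩
    · have h1 := (hr3 a a.2).2 s
      rw [hA s _ (hr1 a.2)] at h1
      exact Subtype.ext h1
    · refine Subtype.ext (hr4 a ⟨a.2, fun s => ?_⟩)
      rw [hA s _ a.2]
      exact congrArg Subtype.val (ha s)

theorem single_main [CompleteSpace X]
    (hX : Function.Surjective (NormedSpace.inclusionInDoubleDual ℝ X))
    {C : Set X} (hne : C.Nonempty) (hcl : IsClosed C) (hb : Bornology.IsBounded C)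
    (hco : Convex ℝ C) (T : C → C)
    (hT : ∀ a b : C, ‖(T a : X) - (T b : X)‖ ≤ ‖(a : X) - (b : X)‖) : ∃ a : C, T a = a := by
  classical
  let A : X → X := fun x => if h : x ∈ C then (T ⟨x, h⟩ : X) else x
  have hA : ∀ (x : X) (h : x ∈ C), A x = (T ⟨x, h⟩ : X) := by
    intro x h
    simp only [A, dif_pos h]
  obtain ⟨y, hy, hfix⟩ := exists_fixed_point hX hne hcl hb hco (T := A)
    (fun x hx => by rw [hA x hx]; exact (T ⟨x, hx⟩).2)
    (fun x hx y hy => by rw [hA x hx, hA y hy]; exact hT ⟨x, hx⟩ ⟨y, hy⟩)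
  exact ⟨⟨y, hy⟩, Subtype.ext (by rw [← hA y hy]; exact hfix)⟩

theorem isometry_main (hX : Function.Surjective (NormedSpace.inclusionInDoubleDual ℝ X))
    {C : Set X} (hne : C.Nonempty) (hcl : IsClosed C) (hb : Bornology.IsBounded C)
    (hco : Convex ℝ C) : ∃ a : C, ∀ T : C ≃ᵢ C, T a = a := by
  have hS : Good (C ≃ᵢ C) := Or.inr ⟨fun a b => ⟨a⁻¹, b⁻¹, by simp⟩, fun a b => ⟨a⁻¹, b⁻¹, by simp⟩⟩
  obtain ⟨x, hx⟩ := hne
  refine (semigroup_main hX hS hcl hco (fun T a => T a) (fun T a b => ?_) fun s t a => rfl).1.2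
    ⟨⟨x, hx⟩, hb.subset ?_⟩
  · have := T.dist_eq a b
    rw [Subtype.dist_eq, Subtype.dist_eq, dist_eq_norm, dist_eq_norm] at this
    exact this.le
  · rintro _ ⟨T, rfl⟩
    exact (T ⟨x, hx⟩).2

end Vale.Agent.N079
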