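import Vale.Agent.P079.H880.Retract
import Mathlib.Analysis.Convex.Join

/-! Separation from a ball, a version of Mazur's lemma along an ultrafilter with adaptive
choices, and the final contradiction for almost alternating functionals. -/

set_option linter.all false

open Filter Topology Set

namespace Vale.Agent.N079

open Vale.Agent.P079

variable {X : Type*} [NormedAddCommGroup X] [NormedSpace ℝ X]

theorem dual_le {f : StrongDual ℝ X} {J : ℝ} (hf : ‖f‖ ≤ J) (x : X) : f x ≤ J * ‖x‖ :=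
  (le_abs_self _).trans ((f.le_opNorm x).trans (mul_le_mul_of_nonneg_right hf (norm_nonneg _)))

theorem dual_le_one {f : StrongDual ℝ X} (hf : ‖f‖ ≤ 1) (x : X) : f x ≤ ‖x‖ := by
  have := dual_le hf x
  rwa [one_mul] at this

/-- A convex set at distance at least `δ` from `p` is separated from `p` by a functional of norm
at most one, with gap `δ`. -/
theorem sep_ball {D : Set X} (hD : Convex ℝ D) (p : X) (δ : ℝ)
    (h : ∀ y ∈ D, δ ≤ ‖y - p‖) :
    ∃ f : StrongDual ℝ X, ‖f‖ ≤ 1 ∧ ∀ y ∈ D, δ ≤ f (y - p) := by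
  rcases le_or_gt δ 0 with hδ | hδ
  · exact ⟨0, by simp, fun y _ => by simpa using hδ⟩
  have hdisj : Disjoint (Metric.ball p δ) D := by
    rw [Set.disjoint_left]
    intro y hy hyD
    rw [mem_ball_iff_norm] at hy
    exact absurd (h y hyD) (not_le.2 hy)
  obtain ⟨f, u, hf1, hf2⟩ :=
    geometric_hahn_banach_open (convex_ball p δ) Metric.isOpen_ball hD hdisj
  have hc : 0 < u - f p := by
    have := hf1 p (Metric.mem_ball_self hδ)
    linarith
  have key : ∀ x : X, δ * f x ≤ (u - f p) * ‖x‖ := by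
    intro x
    rcases eq_or_ne x 0 with rfl | hx
    · simp
    have hx0 : 0 < ‖x‖ := norm_pos_iff.2 hx
    rcases le_or_gt (f x) 0 with hfx | hfx
    · have h1 : δ * f x ≤ 0 := mul_nonpos_of_nonneg_of_nonpos hδ.le hfx
      have h2 : 0 ≤ (u - f p) * ‖x‖ := mul_nonneg hc.le hx0.le
      linarith
    · rw [← le_div_iff₀ hfx]
      refine le_of_forall_lt_imp_le_of_dense fun t ht => ?_
      rcases le_or_gt t 0 with ht0 | ht0
      · exact ht0.trans (div_nonneg (mul_nonneg hc.le hx0.le) hfx.le)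
      have h1 : p + (t / ‖x‖) • x ∈ Metric.ball p δ := by
        rw [mem_ball_iff_norm, add_sub_cancel_left, norm_smul,
          Real.norm_of_nonneg (div_nonneg ht0.le hx0.le), div_mul_cancel₀ _ hx0.ne']
        exact ht
      have h2 := hf1 _ h1
      rw [map_add, map_smul, smul_eq_mul] at h2
      rw [le_div_iff₀ hfx]
      have h3 : t / ‖x‖ * f x ≤ u - f p := by linarith
      have h4 := mul_le_mul_of_nonneg_right h3 hx0.le
      calc t * f x = t / ‖x‖ * f x * ‖x‖ := by field_simp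
        _ ≤ (u - f p) * ‖x‖ := h4
  refine ⟨(δ / (u - f p)) • f, ?_, fun y hy => ?_⟩
  · refine ContinuousLinearMap.opNorm_le_bound _ zero_le_one fun x => ?_
    rw [one_mul, ContinuousLinearMap.smul_apply, smul_eq_mul, Real.norm_eq_abs, abs_le]
    have h1 := key x
    have h2 := key (-x)
    rw [map_neg, norm_neg] at h2
    constructor
    · rw [div_mul_eq_mul_div, le_div_iff₀ hc]
      linarith
    · rw [div_mul_eq_mul_div, div_le_iff₀ hc]
      linarith
  · rw [ContinuousLinearMap.smul_apply, smul_eq_mul, map_sub, div_mul_eq_mul_div, le_div_iff₀ hc]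
    have := hf2 y hy
    exact mul_le_mul_of_nonneg_left (by linarith) hδ.le

/-- Mazur's lemma with adaptive choices: if a property of finite sets can be kept when a point
taken from a large set is added, some finite set with the property has a convex combination close
to the weak limit. -/
theorem mazur_game (hX : Function.Surjective (NormedSpace.inclusionInDoubleDual ℝ X))
    (l : Filter X) [l.NeBot] {M : ℝ} (hM : ∀ᶠ u in l, ‖u‖ ≤ M) {b : X}
    (hb : ∀ f : StrongDual ℝ X, Tendsto (fun u => f u) l (𝓝 (f b)))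
    (P : Set X → Prop) (h0 : P ∅)
    (hstep : ∀ A : Set X, A.Finite → P A → ∀ᶠ u in l, P (insert u A)) {δ : ℝ} (hδ : 0 < δ) :
    ∃ A : Set X, A.Finite ∧ P A ∧ ∃ y ∈ convexHull ℝ A, ‖y - b‖ < δ := by
  by_contra hcon
  push Not at hcon
  let Q : ℕ → Set X × Set (StrongDual ℝ X) → Prop := fun _ s =>
    s.1.Finite ∧ P s.1 ∧ s.2.Finite
  let r : ℕ → Set X × Set (StrongDual ℝ X) → Set X × Set (StrongDual ℝ X) → Prop :=
    fun _ s s' => ∃ (u : X) (f : StrongDual ℝ X), s'.1 = insert u s.1 ∧ s'.2 = insert f s.2 ∧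
      ‖u‖ ≤ M ∧ ‖f‖ ≤ 1 ∧ (∀ y ∈ convexHull ℝ s.1, δ ≤ f (y - b)) ∧
      ∀ f' ∈ s'.2, f' (u - b) ≤ δ / 2
  have hnext : ∀ i s, Q i s → ∃ s', Q (i + 1) s' ∧ r i s s' := by
    rintro i ⟨A, Φ⟩ ⟨hA, hP, hΦ⟩
    obtain ⟨f, hf1, hf2⟩ := sep_ball (convex_convexHull ℝ A) b δ (hcon A hA hP)
    have h1 : ∀ᶠ u in l, ∀ f' ∈ insert f Φ, f' (u - b) ≤ δ / 2 := by
      rw [Filter.eventually_all_finite (hΦ.insert f)]
      intro f' _
      have h2 := (hb f').eventually (gt_mem_nhds (show f' b < f' b + δ / 2 by linarith))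
      filter_upwards [h2] with u hu
      rw [map_sub]
      linarith
    obtain ⟨u, hu1, hu2, hu3⟩ := (hM.and ((hstep A hA hP).and h1)).exists
    exact ⟨(insert u A, insert f Φ), ⟨hA.insert u, hu2, hΦ.insert f⟩, u, f, rfl, rfl, hu1, hf1,
      hf2, hu3⟩
  obtain ⟨s, -, -, hs⟩ := exists_seq_dep Q r (∅, ∅) ⟨finite_empty, h0, finite_empty⟩ hnext
  choose u f h1 h2 h3 h4 h5 h6 using hs
  have hm1 : Monotone fun n => (s n).1 :=
    monotone_nat_of_le_succ fun n => by
      rw [h1 n]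
      exact subset_insert _ _
  have hm2 : Monotone fun n => (s n).2 :=
    monotone_nat_of_le_succ fun n => by
      rw [h2 n]
      exact subset_insert _ _
  obtain ⟨h, hh⟩ := exists_weak_limit hX (hyperfilter ℕ) u M h3
  have hfh : ∀ n, f n (h - b) ≤ δ / 2 := by
    intro n
    have e1 : Tendsto (fun i => f n (u i - b)) (hyperfilter ℕ) (𝓝 (f n (h - b))) := by
      simp only [map_sub]
      exact (hh (f n)).sub_const _
    refine le_of_tendsto e1 ?_
    filter_upwards [(eventually_ge_atTop n).filter_mono Nat.hyperfilter_le_atTop] with i hi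
    refine h6 i _ (hm2 (Nat.succ_le_succ hi) ?_)
    show f n ∈ (s (n + 1)).2
    rw [h2 n]
    exact mem_insert _ _
  have hdir : Directed (· ⊆ ·) fun n => convexHull ℝ (s n).1 :=
    Monotone.directed_le (f := fun n => convexHull ℝ (s n).1) fun a c hac =>
      convexHull_mono (hm1 hac)
  have hcl : h ∈ closure (⋃ n, convexHull ℝ (s n).1) := by
    refine weak_limit_mem hh (Convex.closure (hdir.convex_iUnion fun n => convex_convexHull ℝ _))
      isClosed_closure (Eventually.of_forall fun i => subset_closure ?_)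
    refine mem_iUnion.2 ⟨i + 1, subset_convexHull ℝ _ ?_⟩
    rw [h1 i]
    exact mem_insert _ _
  obtain ⟨y, hy, hyh⟩ := Metric.mem_closure_iff.1 hcl (δ / 2) (half_pos hδ)
  obtain ⟨n, hn⟩ := mem_iUnion.1 hy
  have e1 := h5 n y hn
  have e2 := hfh n
  have e3 := dual_le_one (h4 n) (y - h)
  rw [dist_comm, dist_eq_norm] at hyh
  rw [map_sub] at e1 e2 e3
  linarith

/-- Functionals that are almost constant on a compact set and see a far point. -/
theorem exists_phi {K : Set X} (hco : Convex ℝ K) (l : Filter X) (γ : X → X) (r : ℝ)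
    (hfar : ∀ v ∈ K, ∀ ε > 0, ∀ᶠ u in l, r - ε ≤ ‖γ u - v‖)
    (hnear : ∀ v ∈ K, ∀ ε > 0, ∀ᶠ u in l, ‖γ u - v‖ ≤ r + ε)
    {Q : Set X} (hQ : IsCompact Q) (hQK : Q ⊆ K) {ε : ℝ} (hε : 0 < ε) :
    ∀ᶠ u in l, ∃ φ : StrongDual ℝ X, ‖φ‖ ≤ 1 ∧
      ∀ v ∈ Q, r - ε ≤ φ (γ u - v) ∧ φ (γ u - v) ≤ r + ε := by
  have hε3 : 0 < ε / 3 := by linarith
  obtain ⟨t, htQ, htf, ht⟩ := hQ.finite_cover_balls hε3
  have hH : IsCompact (convexHull ℝ t) := htf.isCompact_convexHull ℝ
  have hHK : convexHull ℝ t ⊆ K := convexHull_min (htQ.trans hQK) hco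
  obtain ⟨t', ht'H, ht'f, ht'⟩ := hH.finite_cover_balls hε3
  have e1 : ∀ᶠ u in l, ∀ v ∈ t', r - ε / 3 ≤ ‖γ u - v‖ := by
    rw [Filter.eventually_all_finite ht'f]
    exact fun v hv => hfar v (hHK (ht'H hv)) _ hε3
  have e2 : ∀ᶠ u in l, ∀ v ∈ t, ‖γ u - v‖ ≤ r + ε / 3 := by
    rw [Filter.eventually_all_finite htf]
    exact fun v hv => hnear v (hQK (htQ hv)) _ hε3
  filter_upwards [e1, e2] with u hu1 hu2
  have h1 : ∀ y ∈ convexHull ℝ t, r - 2 * (ε / 3) ≤ ‖y - γ u‖ := by
    intro y hy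
    obtain ⟨v, hv, hyv⟩ := mem_iUnion₂.1 (ht' hy)
    rw [mem_ball_iff_norm] at hyv
    have h2 := hu1 v hv
    have h3 : ‖γ u - v‖ ≤ ‖y - γ u‖ + ‖y - v‖ := by
      calc ‖γ u - v‖ = ‖(y - v) - (y - γ u)‖ := by congr 1; abel
        _ ≤ ‖y - v‖ + ‖y - γ u‖ := norm_sub_le _ _
        _ = ‖y - γ u‖ + ‖y - v‖ := add_comm _ _
    linarith
  obtain ⟨f, hf1, hf2⟩ := sep_ball (convex_convexHull ℝ t) (γ u) _ h1
  refine ⟨-f, by rwa [norm_neg], fun v hv => ?_⟩
  obtain ⟨w, hw, hvw⟩ := mem_iUnion₂.1 (ht hv)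
  rw [mem_ball_iff_norm] at hvw
  have h2 := hf2 w (subset_convexHull ℝ t hw)
  have h3 := dual_le_one hf1 (w - v)
  have h4 := dual_le_one hf1 (v - w)
  have h5 := dual_le_one hf1 (w - γ u)
  have h6 := hu2 w hw
  rw [norm_sub_rev] at h3 h5
  rw [ContinuousLinearMap.neg_apply]
  rw [map_sub] at h2 h3 h4 h5 ⊢
  constructor <;> linarith

/-- The sum of functionals controls each summand. -/
theorem abs_le_of_chain (F : ℕ → StrongDual ℝ X) (h0 : F 0 = 0)
    (h1 : ∀ l, ‖F (l + 1) + F l‖ ≤ 1) (x : X) :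
    ∀ i, |F i x| ≤ i * ‖x‖ ∧
      ∀ l < i, |F i x| ≤ |(F (l + 1) + F l) x| + ((i : ℝ) - 1) * ‖x‖ := by
  have hb : ∀ l, |(F (l + 1) + F l) x| ≤ ‖x‖ := by
    intro l
    have := ((F (l + 1) + F l).le_opNorm x).trans
      (mul_le_mul_of_nonneg_right (h1 l) (norm_nonneg _))
    rwa [one_mul, Real.norm_eq_abs] at this
  have hs : ∀ i, |F (i + 1) x| ≤ |(F (i + 1) + F i) x| + |F i x| := by
    intro i
    have e : F (i + 1) x = (F (i + 1) + F i) x - F i x := by
      rw [ContinuousLinearMap.add_apply]; ring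
    calc |F (i + 1) x| = |(F (i + 1) + F i) x - F i x| := by rw [← e]
      _ ≤ _ := abs_sub _ _
  intro i
  induction i with
  | zero => exact ⟨by simp [h0], fun l hl => absurd hl (Nat.not_lt_zero l)⟩
  | succ i ih =>
    have a1 := hs i
    have a2 := hb i
    rw [Nat.cast_succ]
    refine ⟨by nlinarith [ih.1], fun l hl => ?_⟩
    rcases Nat.lt_succ_iff_lt_or_eq.1 hl with h | rfl
    · have a3 := ih.2 l h
      nlinarith
    · nlinarith [ih.1]

/-- In a reflexive space there is no bounded sequence of vectors on which pointwise null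
functionals of bounded norm stay large below the diagonal. -/
theorem triangle_false (hX : Function.Surjective (NormedSpace.inclusionInDoubleDual ℝ X))
    (φ : ℕ → StrongDual ℝ X) (hφ1 : ∀ n, ‖φ n‖ ≤ 1) (g : ℕ → X) {M c : ℝ} (hc : 0 < c)
    (hg1 : ∀ i, ‖g i‖ ≤ M) (hg2 : ∀ i, Tendsto (fun n => φ n (g i)) atTop (𝓝 0))
    (hg3 : ∀ i, ∀ l < i, c ≤ |φ l (g i)|) : False := by
  obtain ⟨h, hh⟩ := exists_weak_limit hX (hyperfilter ℕ) g M hg1
  have hhC : h ∈ closure (Submodule.span ℝ (range g) : Set X) := by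
    refine weak_limit_mem hh (Submodule.convex _).closure isClosed_closure ?_
    exact Eventually.of_forall fun i =>
      subset_closure (Submodule.subset_span (mem_range_self i))
  have h1 : ∀ l, c ≤ |φ l h| := by
    intro l
    refine ge_of_tendsto (hh (φ l)).abs ?_
    filter_upwards [(eventually_gt_atTop l).filter_mono Nat.hyperfilter_le_atTop] with i hi
    exact hg3 i l hi
  have h3 : Tendsto (fun l => φ l h) atTop (𝓝 0) :=
    tendsto_zero_closure_span (range g) φ hφ1 (by rintro _ ⟨i, rfl⟩; exact hg2 i) h hhC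
  obtain ⟨N, hN⟩ := Metric.tendsto_atTop.1 h3 c hc
  have h4 := hN N le_rfl
  rw [dist_zero_right, Real.norm_eq_abs] at h4
  exact absurd (h1 N) (not_le.2 h4)

end Vale.Agent.N079
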