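import Vale.Agent.N079.Core

/-! Semigroups acting by nonexpansive maps: minimal sets, invariant filters, and the case of
semigroups that are left and right reversible. -/

set_option linter.all false

open Filter Topology Set

namespace Vale.Agent.N079

open Vale.Agent.P079 Vale.Agent.P079.H880

variable {X : Type*} [NormedAddCommGroup X] [NormedSpace ℝ X]

/-- Points of `K` at asymptotic distance at most `ρ` from the filter `l`. -/
def Near (K : Set X) (l : Filter X) (ρ : ℝ) : Set X :=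
  {y | y ∈ K ∧ ∀ ε > 0, ∀ᶠ u in l, ‖u - y‖ ≤ ρ + ε}

theorem Near.closed {K : Set X} (hK : IsClosed K) (l : Filter X) (ρ : ℝ) :
    IsClosed (Near K l ρ) := by
  refine isClosed_of_closure_subset fun b hb => ?_
  refine ⟨closure_minimal (fun z hz => hz.1) hK hb, fun ε hε => ?_⟩
  obtain ⟨b', hb', hbb⟩ := Metric.mem_closure_iff.1 hb (ε / 2) (half_pos hε)
  rw [dist_comm, dist_eq_norm] at hbb
  filter_upwards [hb'.2 (ε / 2) (half_pos hε)] with u hu
  calc ‖u - b‖ = ‖(u - b') + (b' - b)‖ := by rw [sub_add_sub_cancel]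
    _ ≤ ‖u - b'‖ + ‖b' - b‖ := norm_add_le _ _
    _ ≤ ρ + ε := by linarith

theorem norm_sub_combo (u y z : X) {a b : ℝ} (ha : 0 ≤ a) (hb : 0 ≤ b) (hab : a + b = 1) :
    ‖u - (a • y + b • z)‖ ≤ a * ‖u - y‖ + b * ‖u - z‖ := by
  have h1 : u - (a • y + b • z) = a • (u - y) + b • (u - z) := by
    have h2 : u = (a + b) • u := by rw [hab, one_smul]
    calc u - (a • y + b • z) = (a + b) • u - (a • y + b • z) := by rw [← h2]
      _ = _ := by module
  rw [h1]
  calc ‖a • (u - y) + b • (u - z)‖ ≤ ‖a • (u - y)‖ + ‖b • (u - z)‖ := norm_add_le _ _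
    _ = a * ‖u - y‖ + b * ‖u - z‖ := by
      rw [norm_smul, norm_smul, Real.norm_of_nonneg ha, Real.norm_of_nonneg hb]

theorem Near.convex {K : Set X} (hK : Convex ℝ K) (l : Filter X) (ρ : ℝ) :
    Convex ℝ (Near K l ρ) := by
  intro y hy z hz a b ha hb hab
  refine ⟨hK hy.1 hz.1 ha hb hab, fun ε hε => ?_⟩
  filter_upwards [hy.2 ε hε, hz.2 ε hε] with u h1 h2
  calc ‖u - (a • y + b • z)‖ ≤ a * ‖u - y‖ + b * ‖u - z‖ := norm_sub_combo u y z ha hb hab
    _ ≤ a * (ρ + ε) + b * (ρ + ε) := by gcongr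
    _ = ρ + ε := by rw [← add_mul, hab, one_mul]

theorem Near.maps {K : Set X} {l : Filter X} (hl : ∀ᶠ u in l, u ∈ K) {g : X → X} (hg : NE K g)
    (hinv : map g l = l) (ρ : ℝ) : MapsTo g (Near K l ρ) (Near K l ρ) := by
  intro y hy
  refine ⟨hg.1 hy.1, fun ε hε => ?_⟩
  rw [← hinv, eventually_map]
  filter_upwards [hy.2 ε hε, hl] with u h1 h2
  exact (hg.2 u h2 y hy.1).trans h1

/-- Minimal invariant sets of a family of maps. -/
structure MinFam {ι : Type*} (T : ι → X → X) (K : Set X) : Prop where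
  ne : K.Nonempty
  cl : IsClosed K
  co : Convex ℝ K
  maps : ∀ s, MapsTo (T s) K K
  min : ∀ D ⊆ K, D.Nonempty → IsClosed D → Convex ℝ D → (∀ s, MapsTo (T s) D D) → D = K

theorem exists_minFam (hX : Function.Surjective (NormedSpace.inclusionInDoubleDual ℝ X))
    {C : Set X} (hb : Bornology.IsBounded C) (hcl : IsClosed C) (hco : Convex ℝ C)
    (hne : C.Nonempty) {ι : Type*} {T : ι → X → X} (hTm : ∀ s, MapsTo (T s) C C) :
    ∃ K ⊆ C, MinFam T K := by
  let S : Set (Set X) :=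
    {D | D ⊆ C ∧ D.Nonempty ∧ IsClosed D ∧ Convex ℝ D ∧ ∀ s, MapsTo (T s) D D}
  obtain ⟨K, hKC, hK⟩ := zorn_superset_nonempty S (by
    intro c hcS hc hcne
    refine ⟨⋂₀ c, ⟨?_, ?_, ?_, ?_, ?_⟩, fun s hs => Set.sInter_subset_of_mem hs⟩
    · obtain ⟨s, hs⟩ := hcne
      exact (Set.sInter_subset_of_mem hs).trans (hcS hs).1
    · exact chain_inter_nonempty hX hb c hc hcne (fun s hs => (hcS hs).1)
        (fun s hs => (hcS hs).2.1) (fun s hs => (hcS hs).2.2.1) (fun s hs => (hcS hs).2.2.2.1)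
    · exact isClosed_sInter fun s hs => (hcS hs).2.2.1
    · exact convex_sInter fun s hs => (hcS hs).2.2.2.1
    · intro i x hx
      rw [Set.mem_sInter] at hx ⊢
      intro s hs
      exact (hcS hs).2.2.2.2 i (hx s hs)) C ⟨Subset.rfl, hne, hcl, hco, hTm⟩
  refine ⟨K, hKC, ⟨hK.prop.2.1, hK.prop.2.2.1, hK.prop.2.2.2.1, hK.prop.2.2.2.2, ?_⟩⟩
  intro D hDK hDne hDcl hDco hDT
  refine Subset.antisymm hDK ?_
  exact hK.le_of_le ⟨hDK.trans hKC, hDne, hDcl, hDco, hDT⟩ hDK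

theorem MinFam.near {ι : Type*} {T : ι → X → X} {K : Set X} (hK : MinFam T K)
    (hT : ∀ s, NE K (T s)) {l : Filter X} (hl : ∀ᶠ u in l, u ∈ K) (hinv : ∀ s, map (T s) l = l)
    {ρ : ℝ} {y : X} (hy : y ∈ Near K l ρ) : Near K l ρ = K :=
  hK.min _ (fun z hz => hz.1) ⟨y, hy⟩ (Near.closed hK.cl l ρ) (Near.convex hK.co l ρ)
    fun s => Near.maps hl (hT s) (hinv s) ρ

variable {S : Type*} [Semigroup S]

theorem push_inv {C : Set X} {T : S → X → X} (hmul : ∀ s t, ∀ x ∈ C, T (s * t) x = T s (T t x))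
    {L : Filter S} (hL : ∀ a, map (fun t => a * t) L = L) {x : X} (hx : x ∈ C) (a : S) :
    map (T a) (map (fun t => T t x) L) = map (fun t => T t x) L := by
  conv_rhs => rw [← hL a]
  rw [map_map, map_map]
  congr 1
  funext t
  exact (hmul a t x hx).symm

/-- From the core theorem to a common fixed point. -/
theorem fixed_of_far (hX : Function.Surjective (NormedSpace.inclusionInDoubleDual ℝ X))
    [Nonempty S] {K : Set X} {T : S → X → X} (hK : MinFam T K) (hb : Bornology.IsBounded K)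
    (hT : ∀ s, NE K (T s)) (hmul : ∀ s t, ∀ x ∈ K, T (s * t) x = T s (T t x))
    {l V : Filter X} [V.NeBot] (hVl : V ≤ l) (hl : ∀ᶠ u in l, u ∈ K)
    (hinv : ∀ s, map (T s) l = l) {r : ℝ} (hnear : Near K l r = K)
    (hfar : ∀ s, ∀ v ∈ K, ∀ ε > 0, ∀ᶠ u in V, r - ε ≤ ‖T s u - v‖) :
    ∃ y ∈ K, ∀ s, T s y = y := by
  classical
  obtain ⟨y, hy⟩ := hK.ne
  obtain ⟨M, hM⟩ := hb.exists_norm_le
  have hn : ∀ y ∈ K, ∀ ε > 0, ∀ᶠ u in l, ‖u - y‖ ≤ r + ε := by
    intro y hy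
    rw [← hnear] at hy
    exact hy.2
  let U : Ultrafilter X := Ultrafilter.of V
  have hUV : (U : Filter X) ≤ V := Ultrafilter.of_le V
  have hUl : (U : Filter X) ≤ l := hUV.trans hVl
  obtain ⟨b0, hb0⟩ := exists_weak_limit hX U (fun u => if u ∈ K then u else y) M (fun u => by
    split_ifs with h
    · exact hM u h
    · exact hM y hy)
  have hw : ∀ f : StrongDual ℝ X, Tendsto (fun u => f u) U (𝓝 (f b0)) := by
    intro f
    refine (hb0 f).congr' ?_
    filter_upwards [hl.filter_mono hUl] with u hu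
    rw [if_pos hu]
  have hb0K : b0 ∈ K := weak_limit_mem hw hK.co hK.cl (hl.filter_mono hUl)
  have hr : r ≤ 0 := by
    refine core hX (K := K) (G := range T)
      (P := fun γ => (∀ x ∈ K, γ x = x) ∨ ∃ s, ∀ x ∈ K, γ x = T s x) (l := l) (U := U) (b0 := b0)
      ⟨hK.cl, hK.co, hb, ?_, ?_, hl, ?_, hn, hUl, Or.inl fun x _ => rfl, ?_, ?_, hb0K, hw⟩
    · rintro _ ⟨s, rfl⟩
      exact hT s
    · intro D h1 h2 h3 h4 h5
      exact hK.min D h1 h2 h3 h4 fun s => h5 _ ⟨s, rfl⟩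
    · rintro _ ⟨s, rfl⟩
      exact hinv s
    · rintro γ (h | ⟨s', h⟩) _ ⟨s, rfl⟩
      · exact Or.inr ⟨s, fun x hx => h _ (hK.maps s hx)⟩
      · exact Or.inr ⟨s' * s, fun x hx => by rw [hmul s' s x hx]; exact h _ (hK.maps s hx)⟩
    · rintro γ (h | ⟨s, h⟩) v hv ε hε
      · obtain ⟨s⟩ := ‹Nonempty S›
        filter_upwards [(hfar s _ (hK.maps s hv) ε hε).filter_mono hUV, hl.filter_mono hUl]
          with u h1 h2
        rw [h u h2]
        exact h1.trans ((hT s).2 u h2 v hv)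
      · filter_upwards [(hfar s v hv ε hε).filter_mono hUV, hl.filter_mono hUl] with u h1 h2
        rwa [h u h2]
  haveI : l.NeBot := neBot_of_le hVl
  refine ⟨y, hy, fun s => ?_⟩
  rw [← sub_eq_zero, ← norm_le_zero_iff]
  refine le_of_forall_pos_le_add fun ε hε => ?_
  obtain ⟨u, h1, h2⟩ := ((hn y hy _ (half_pos hε)).and
    (hn _ (hK.maps s hy) _ (half_pos hε))).exists
  calc ‖T s y - y‖ = ‖(u - y) - (u - T s y)‖ := by congr 1; abel
    _ ≤ ‖u - y‖ + ‖u - T s y‖ := norm_sub_le _ _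
    _ ≤ 0 + ε := by linarith

/-- The filter of tails of a left reversible semigroup. -/
theorem exists_tail_filter [Nonempty S] (hleft : ∀ a b : S, ∃ p q, a * p = b * q) :
    ∃ L : Filter S, L.NeBot ∧ ∀ a, map (fun t => a * t) L = L := by
  let f : S → Filter S := fun t => 𝓟 (range fun s => t * s)
  have hd : Directed (· ≥ ·) f := by
    intro a b
    obtain ⟨p, q, h⟩ := hleft a b
    refine ⟨a * p, principal_mono.2 ?_, principal_mono.2 ?_⟩
    · rintro _ ⟨s, rfl⟩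
      exact ⟨p * s, (mul_assoc _ _ _).symm⟩
    · rintro _ ⟨s, rfl⟩
      exact ⟨q * s, by simp only [h, mul_assoc]⟩
  refine ⟨iInf f, iInf_neBot_of_directed' hd fun t => principal_neBot_iff.2 (range_nonempty _),
    fun a => ?_⟩
  ext B
  rw [mem_map, mem_iInf_of_directed hd, mem_iInf_of_directed hd]
  constructor
  · rintro ⟨t, ht⟩
    refine ⟨a * t, ?_⟩
    rintro _ ⟨s, rfl⟩
    have := ht ⟨s, rfl⟩
    simp only [mul_assoc]
    exact this
  · rintro ⟨t, ht⟩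
    obtain ⟨p, q, h⟩ := hleft a t
    refine ⟨p, ?_⟩
    rintro _ ⟨s, rfl⟩
    refine ht ⟨q * s, ?_⟩
    simp only [← mul_assoc, h]

/-- Right reversible semigroups with an invariant filter fix a point of every minimal set. -/
theorem fixed_reversible (hX : Function.Surjective (NormedSpace.inclusionInDoubleDual ℝ X))
    [Nonempty S] (hleft : ∀ a b : S, ∃ p q, a * p = b * q)
    (hright : ∀ a b : S, ∃ p q, p * a = q * b)
    {K : Set X} {T : S → X → X} (hK : MinFam T K) (hb : Bornology.IsBounded K)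
    (hT : ∀ s, NE K (T s)) (hmul : ∀ s t, ∀ x ∈ K, T (s * t) x = T s (T t x)) :
    ∃ y ∈ K, ∀ s, T s y = y := by
  obtain ⟨L, hLn, hL⟩ := exists_tail_filter hleft
  obtain ⟨x, hx⟩ := hK.ne
  obtain ⟨M, hM⟩ := hb.exists_norm_le
  set l : Filter X := map (fun t => T t x) L with hl_def
  have hl : ∀ᶠ u in l, u ∈ K := eventually_map.2 (Eventually.of_forall fun t => hK.maps t hx)
  have hinv : ∀ s, map (T s) l = l := push_inv hmul hL hx
  set A : Set ℝ := {ρ | ∀ᶠ u in l, ‖u - x‖ ≤ ρ} with hA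
  have hAne : A.Nonempty := ⟨M + M, hl.mono fun u hu =>
    (norm_sub_le _ _).trans (add_le_add (hM u hu) (hM x hx))⟩
  have hAbd : BddBelow A := ⟨0, fun ρ hρ => by
    obtain ⟨u, hu⟩ := (show ∀ᶠ u in l, ‖u - x‖ ≤ ρ from hρ).exists
    exact (norm_nonneg _).trans hu⟩
  set r : ℝ := sInf A with hr
  have hnear : Near K l r = K := by
    refine hK.near hT hl hinv (y := x) ⟨hx, fun ε hε => ?_⟩
    obtain ⟨ρ, hρ, hlt⟩ := exists_lt_of_csInf_lt hAne (show sInf A < r + ε by linarith)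
    exact (show ∀ᶠ u in l, ‖u - x‖ ≤ ρ from hρ).mono fun u hu => hu.trans hlt.le
  have hn : ∀ s, ∀ y ∈ K, ∀ ε > 0, ∀ᶠ u in l, ‖T s u - y‖ ≤ r + ε := by
    intro s y hy ε hε
    rw [← hnear] at hy
    have := hy.2 ε hε
    rwa [← hinv s, eventually_map] at this
  have hfr : ∀ s, ∀ v ∈ K, ∀ ε > 0, ∃ᶠ u in l, r - ε ≤ ‖T s u - v‖ := by
    intro s v hv ε hε
    have h1 : ∃ᶠ u in l, r - ε ≤ ‖u - v‖ := by
      by_contra hcon
      rw [not_frequently] at hcon
      have h2 : Near K l (r - ε) = K := hK.near hT hl hinv (y := v) ⟨hv, fun δ hδ =>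
        hcon.mono fun u hu => by rw [not_le] at hu; linarith⟩
      have h3 : x ∈ Near K l (r - ε) := by rw [h2]; exact hx
      have h4 : r ≤ r - ε + ε / 2 := csInf_le hAbd (h3.2 _ (half_pos hε))
      linarith
    rwa [← hinv s, frequently_map] at h1
  let f : S × K × {ε : ℝ // 0 < ε} → Filter X := fun i =>
    l ⊓ 𝓟 {u | r - i.2.2.1 ≤ ‖T i.1 u - i.2.1.1‖}
  have key : ∀ (s p : S) (v w : X) (ε δ : ℝ), v ∈ K → w ∈ K → 0 < ε → 3 * ε ≤ δ →
      l ⊓ 𝓟 {u | r - ε ≤ ‖T (p * s) u - ((1 / 2 : ℝ) • T p v + (1 / 2 : ℝ) • w)‖} ≤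
        l ⊓ 𝓟 {u | r - δ ≤ ‖T s u - v‖} := by
    intro s p v w ε δ hv hw hε hδ
    refine le_inf inf_le_left (le_principal_iff.2 (mem_inf_principal.2 ?_))
    filter_upwards [hl, hn (p * s) w hw ε hε] with u hu h1 h2
    have h3 := norm_sub_combo (T (p * s) u) (T p v) w (a := 1 / 2) (b := 1 / 2)
      (by norm_num) (by norm_num) (by norm_num)
    have h4 : ‖T (p * s) u - T p v‖ ≤ ‖T s u - v‖ := by
      rw [hmul p s u hu]
      exact (hT p).2 _ (hK.maps s hu) _ hv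
    change r - ε ≤ _ at h2
    change r - δ ≤ _
    linarith
  have hd : Directed (· ≥ ·) f := by
    rintro ⟨s1, ⟨v1, hv1⟩, ε1, hε1⟩ ⟨s2, ⟨v2, hv2⟩, ε2, hε2⟩
    obtain ⟨p, q, h⟩ := hright s1 s2
    have hε : 0 < min ε1 ε2 / 3 := by have := lt_min hε1 hε2; linarith
    refine ⟨(p * s1, ⟨(1 / 2 : ℝ) • T p v1 + (1 / 2 : ℝ) • T q v2, hK.co (hK.maps p hv1)
      (hK.maps q hv2) (by norm_num) (by norm_num) (by norm_num)⟩, ⟨min ε1 ε2 / 3, hε⟩), ?_, ?_⟩
    · exact key s1 p v1 _ _ ε1 hv1 (hK.maps q hv2) hε (by have := min_le_left ε1 ε2; linarith)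
    · have := key s2 q v2 _ _ ε2 hv2 (hK.maps p hv1) hε (by have := min_le_right ε1 ε2; linarith)
      rw [← h, add_comm] at this
      exact this
  obtain ⟨s0⟩ := ‹Nonempty S›
  haveI : Nonempty (S × K × {ε : ℝ // 0 < ε}) := ⟨(s0, ⟨x, hx⟩, ⟨1, one_pos⟩)⟩
  haveI : (iInf f).NeBot := iInf_neBot_of_directed' hd fun i =>
    frequently_iff_neBot.1 (hfr i.1 _ i.2.1.2 _ i.2.2.2)
  refine fixed_of_far hX hK hb hT hmul (V := iInf f)
    ((iInf_le f (s0, ⟨x, hx⟩, ⟨1, one_pos⟩)).trans inf_le_left) hl hinv hnear ?_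
  intro s v hv ε hε
  exact le_principal_iff.1 ((iInf_le f (s, ⟨v, hv⟩, ⟨ε, hε⟩)).trans inf_le_right)

/-- A bounded orbit gives a bounded invariant closed convex set. -/
theorem exists_bounded_invariant {C : Set X} (hcl : IsClosed C) (hco : Convex ℝ C)
    {T : S → X → X} (hT : ∀ s, NE C (T s)) (hmul : ∀ s t, ∀ x ∈ C, T (s * t) x = T s (T t x))
    {L : Filter S} [L.NeBot] (hL : ∀ a, map (fun t => a * t) L = L) {x : X} (hx : x ∈ C)
    (hb : Bornology.IsBounded (range fun s => T s x)) :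
    ∃ D ⊆ C, D.Nonempty ∧ IsClosed D ∧ Convex ℝ D ∧ Bornology.IsBounded D ∧
      ∀ s, MapsTo (T s) D D := by
  obtain ⟨M, hM⟩ := hb.exists_norm_le
  set l : Filter X := map (fun t => T t x) L with hl_def
  have hl : ∀ᶠ u in l, u ∈ C := eventually_map.2 (Eventually.of_forall fun t => (hT t).1 hx)
  have hlM : ∀ᶠ u in l, ‖u‖ ≤ M := eventually_map.2 (Eventually.of_forall fun t => hM _ ⟨t, rfl⟩)
  refine ⟨Near C l (M + ‖x‖), fun z hz => hz.1, ⟨x, hx, fun ε hε => ?_⟩, Near.closed hcl _ _,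
    Near.convex hco _ _, ?_, fun s => Near.maps hl (hT s) (push_inv hmul hL hx s) _⟩
  · filter_upwards [hlM] with u hu
    have := norm_sub_le u x
    linarith
  · refine isBounded_iff_forall_norm_le.2 ⟨M + (M + ‖x‖ + 1), fun y hy => ?_⟩
    obtain ⟨u, h1, h2⟩ := (hlM.and (hy.2 1 one_pos)).exists
    calc ‖y‖ = ‖u - (u - y)‖ := by rw [sub_sub_cancel]
      _ ≤ ‖u‖ + ‖u - y‖ := norm_sub_le _ _
      _ ≤ _ := add_le_add h1 h2

end Vale.Agent.N079
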